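import Mathlib

/-! From approximate factorisations `d_a^* x d_b ≈ δ_ab x` to approximately central
approximate isometries. -/

set_option linter.all false

open Filter Topology

namespace Vale.Agent.P133OC

variable {A : Type*} [NonUnitalCStarAlgebra A] [PartialOrder A] [StarOrderedRing A]

/-- approximate factorisations of the identity with approximately orthogonal ranges -/
def Pre (A : Type*) [NonUnitalCStarAlgebra A] : Prop :=
  ∀ (F : Finset A) (ε : ℝ), 0 < ε → ∃ d1 d2 : A, ∀ x ∈ F,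
    ‖star d1 * x * d1 - x‖ < ε ∧ ‖star d2 * x * d2 - x‖ < ε ∧ ‖star d1 * x * d2‖ < ε

theorem exists_unit (F : Finset A) {ε : ℝ} (hε : 0 < ε) :
    ∃ e : A, 0 ≤ e ∧ ‖e‖ ≤ 1 ∧ ∀ x ∈ F, ‖e * x - x‖ < ε ∧ ‖x * e - x‖ < ε := by
  have h := CStarAlgebra.increasingApproximateUnit A
  have := h.neBot
  have h1 : ∀ᶠ e in CStarAlgebra.approximateUnit A, ∀ x ∈ F, ‖e * x - x‖ < ε ∧ ‖x * e - x‖ < ε := by
    rw [Filter.eventually_all_finset]
    intro x _
    have a := Metric.tendsto_nhds.1 (h.tendsto_mul_right x) ε hε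
    have b := Metric.tendsto_nhds.1 (h.tendsto_mul_left x) ε hε
    filter_upwards [a, b] with e ha hb
    exact ⟨by rwa [dist_eq_norm] at ha, by rwa [dist_eq_norm] at hb⟩
  obtain ⟨e, h2, h3, h4⟩ := (h.eventually_nonneg.and (h.eventually_norm.and h1)).exists
  exact ⟨e, h2, h3, h4⟩

theorem exists_bound (F : Finset A) : ∃ M : ℝ, 0 ≤ M ∧ ∀ x ∈ F, ‖x‖ ≤ M :=
  ⟨∑ x ∈ F, ‖x‖, Finset.sum_nonneg fun _ _ => norm_nonneg _,
    fun x hx => Finset.single_le_sum (f := fun x => ‖x‖) (fun _ _ => norm_nonneg _) hx⟩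

theorem scale_aux {δ : ℝ} (hδ : 0 < δ) (y x : A) :
    ‖((1 + δ)⁻¹ * (1 + δ)⁻¹) • y - x‖ ≤ ‖y - x‖ + 2 * δ * ‖x‖ := by
  set c := (1 + δ)⁻¹ with hc
  have hc0 : 0 < c := by positivity
  have hc1 : c * (1 + δ) = 1 := inv_mul_cancel₀ (by positivity)
  have hc2 : c ≤ 1 := by nlinarith
  have e : (c * c) • y - x = (c * c) • (y - x) - (1 - c * c) • x := by
    rw [smul_sub, sub_smul, one_smul]; abel
  rw [e]
  refine (norm_sub_le _ _).trans ?_
  rw [norm_smul, norm_smul, Real.norm_of_nonneg (by positivity),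
    Real.norm_of_nonneg (by nlinarith)]
  have h1 : c * c ≤ 1 := by nlinarith
  have h2 : 1 - c * c ≤ 2 * δ := by nlinarith
  have := norm_nonneg (y - x)
  have := norm_nonneg x
  nlinarith

theorem Pre.contr (h : Pre A) (F : Finset A) {ε : ℝ} (hε : 0 < ε) :
    ∃ d1 d2 : A, ‖d1‖ ≤ 1 ∧ ‖d2‖ ≤ 1 ∧ ∀ x ∈ F,
      ‖star d1 * x * d1 - x‖ < ε ∧ ‖star d2 * x * d2 - x‖ < ε ∧ ‖star d1 * x * d2‖ < ε := by
  classical
  obtain ⟨M, hM, hFM⟩ := exists_bound F
  set δ := ε / (4 + 2 * M) with hδ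
  have hδ0 : 0 < δ := by positivity
  have hδε : δ * (4 + 2 * M) = ε := by rw [hδ]; field_simp
  obtain ⟨e, he0, he1, he⟩ := exists_unit F hδ0
  have hes : star e = e := he0.isSelfAdjoint.star_eq
  obtain ⟨d1, d2, hd⟩ := h (insert (e * e) (F.image fun x => e * x * e)) δ hδ0
  have hc0 : 0 < (1 + δ)⁻¹ := by positivity
  have key : ∀ (a b x : A), star ((1 + δ)⁻¹ • (e * a)) * x * ((1 + δ)⁻¹ • (e * b))
      = ((1 + δ)⁻¹ * (1 + δ)⁻¹) • (star a * (e * x * e) * b) := by
    intro a b x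
    rw [star_smul, star_trivial, star_mul, hes, smul_mul_assoc, smul_mul_assoc, mul_smul_comm,
      smul_smul]
    simp only [mul_assoc]
  have nrm : ∀ a : A, ‖star a * (e * e) * a - e * e‖ < δ → ‖(1 + δ)⁻¹ • (e * a)‖ ≤ 1 := by
    intro a ha
    have h1 : ‖e * a‖ * ‖e * a‖ ≤ 1 + δ := by
      rw [← CStarRing.norm_star_mul_self, star_mul, hes]
      have e1 : star a * e * (e * a) = (star a * (e * e) * a - e * e) + e * e := by
        simp only [mul_assoc, sub_add_cancel]
      rw [e1]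
      refine (norm_add_le _ _).trans ?_
      have h2 : ‖e * e‖ ≤ 1 := (norm_mul_le _ _).trans (by nlinarith [norm_nonneg e])
      linarith
    rw [norm_smul, Real.norm_of_nonneg hc0.le, inv_mul_le_iff₀ (by positivity)]
    nlinarith [norm_nonneg (e * a)]
  have hee := hd (e * e) (Finset.mem_insert_self _ _)
  refine ⟨_, _, nrm d1 hee.1, nrm d2 hee.2.1, fun x hx => ?_⟩
  have h1 := hd (e * x * e) (Finset.mem_insert_of_mem (Finset.mem_image_of_mem _ hx))
  have h2 : ‖e * x * e - x‖ < 2 * δ := by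
    have e1 : e * x * e - x = e * (x * e - x) + (e * x - x) := by noncomm_ring
    rw [e1]
    refine (norm_add_le _ _).trans_lt ?_
    have h3 : ‖e * (x * e - x)‖ ≤ ‖x * e - x‖ :=
      (norm_mul_le _ _).trans (by nlinarith [norm_nonneg (x * e - x)])
    linarith [(he x hx).1, (he x hx).2]
  have hx' := hFM x hx
  have fin : ∀ a : A, ‖star a * (e * x * e) * a - e * x * e‖ < δ →
      ‖star ((1 + δ)⁻¹ • (e * a)) * x * ((1 + δ)⁻¹ • (e * a)) - x‖ < ε := by
    intro a ha
    rw [key]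
    refine (scale_aux hδ0 _ _).trans_lt ?_
    have e1 : star a * (e * x * e) * a - x
        = (star a * (e * x * e) * a - e * x * e) + (e * x * e - x) := by abel
    have h3 := norm_add_le (star a * (e * x * e) * a - e * x * e) (e * x * e - x)
    rw [← e1] at h3
    nlinarith
  refine ⟨fin d1 h1.1, fin d2 h1.2.1, ?_⟩
  rw [key]
  have h4 := scale_aux hδ0 (star d1 * (e * x * e) * d2) 0
  rw [sub_zero, sub_zero, norm_zero, mul_zero, add_zero] at h4
  nlinarith [h1.2.2]

theorem comm_le {x d : A} (hd : ‖d‖ ≤ 1) {δ : ℝ} (h1 : ‖star d * x * d - x‖ < δ)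
    (h2 : ‖star d * star x * d - star x‖ < δ)
    (h3 : ‖star d * (star x * x) * d - star x * x‖ < δ) :
    ‖d * x - x * d‖ * ‖d * x - x * d‖ ≤ δ * (1 + 2 * ‖x‖) := by
  rw [← CStarRing.norm_star_mul_self]
  set z := (star d * (star x * x) * d - star x * x) - (star d * star x * d - star x) * x
    - star x * (star d * x * d - x) with hz
  have hle : star (d * x - x * d) * (d * x - x * d) ≤ z := by
    have e : z - star (d * x - x * d) * (d * x - x * d)
        = star x * x - star x * (star d * d) * x := by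
      rw [hz, star_sub, star_mul, star_mul]; noncomm_ring
    rw [← sub_nonneg, e, sub_nonneg]
    refine (CStarAlgebra.star_left_conjugate_le_norm_smul (a := x) (b := star d * d)
      (IsSelfAdjoint.star_mul_self d)).trans ?_
    have h4 : ‖star d * d‖ ≤ 1 := by
      rw [CStarRing.norm_star_mul_self]; nlinarith [norm_nonneg d]
    have h5 : 0 ≤ (1 - ‖star d * d‖) • (star x * x) :=
      smul_nonneg (by linarith) (star_mul_self_nonneg x)
    rw [sub_smul, one_smul, sub_nonneg] at h5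
    exact h5
  refine (CStarAlgebra.norm_le_norm_of_nonneg_of_le (star_mul_self_nonneg _) hle).trans ?_
  refine (norm_sub_le _ _).trans ?_
  have a1 := norm_sub_le (star d * (star x * x) * d - star x * x)
    ((star d * star x * d - star x) * x)
  have a2 := norm_mul_le (star d * star x * d - star x) x
  have a3 := norm_mul_le (star x) (star d * x * d - x)
  rw [norm_star] at a3
  have := norm_nonneg x
  nlinarith

/-- approximately central approximate isometries with orthogonal ranges -/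
theorem cenIso_of (h : Pre A) (F : Finset A) {ε : ℝ} (hε : 0 < ε) :
    ∃ d : Fin 2 → A, (∀ a, ‖d a‖ ≤ 1) ∧ ∀ x ∈ F, ∀ a b,
      ‖d a * x - x * d a‖ < ε ∧ ‖star (d a) * d b * x - (if a = b then x else 0)‖ < ε := by
  classical
  obtain ⟨M, hM, hFM⟩ := exists_bound F
  set δ := min (ε / 2) (ε ^ 2 / (8 * (1 + 2 * M))) with hδ
  have hδ0 : 0 < δ := lt_min (by positivity) (by positivity)
  have hδ1 : δ ≤ ε / 2 := min_le_left _ _
  have hδ2 : δ * (1 + 2 * M) ≤ ε ^ 2 / 8 := by
    have : δ ≤ ε ^ 2 / (8 * (1 + 2 * M)) := min_le_right _ _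
    rw [le_div_iff₀ (by positivity)] at this
    linarith
  obtain ⟨d1, d2, n1, n2, hd⟩ :=
    h.contr (F ∪ F.image star ∪ F.image fun x => star x * x) hδ0
  have m1 : ∀ x ∈ F, x ∈ F ∪ F.image star ∪ F.image fun x => star x * x := fun x hx =>
    Finset.mem_union_left _ (Finset.mem_union_left _ hx)
  have m2 : ∀ x ∈ F, star x ∈ F ∪ F.image star ∪ F.image fun x => star x * x := fun x hx =>
    Finset.mem_union_left _ (Finset.mem_union_right _ (Finset.mem_image_of_mem _ hx))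
  have m3 : ∀ x ∈ F, star x * x ∈ F ∪ F.image star ∪ F.image fun x => star x * x := fun x hx =>
    Finset.mem_union_right _ (Finset.mem_image_of_mem (fun x => star x * x) hx)
  have cm : ∀ x ∈ F, ∀ d : A, ‖d * x - x * d‖ * ‖d * x - x * d‖ ≤ δ * (1 + 2 * ‖x‖) →
      ‖d * x - x * d‖ < ε / 2 := by
    intro x hx d hd
    have h1 : δ * (1 + 2 * ‖x‖) ≤ δ * (1 + 2 * M) := by
      have := hFM x hx
      gcongr
    by_contra hc
    rw [not_lt] at hc
    nlinarith
  have hn : ∀ a, ‖![d1, d2] a‖ ≤ 1 := by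
    intro a; fin_cases a
    · exact n1
    · exact n2
  have c : ∀ x ∈ F, ∀ a, ‖![d1, d2] a * x - x * ![d1, d2] a‖ < ε / 2 := by
    intro x hx a; fin_cases a
    · exact cm x hx d1 (comm_le n1 (hd _ (m1 x hx)).1 (hd _ (m2 x hx)).1 (hd _ (m3 x hx)).1)
    · exact cm x hx d2 (comm_le n2 (hd _ (m1 x hx)).2.1 (hd _ (m2 x hx)).2.1
        (hd _ (m3 x hx)).2.1)
  have f : ∀ x ∈ F, ∀ a b, ‖star (![d1, d2] a) * x * ![d1, d2] b
      - (if a = b then x else 0)‖ < δ := by
    intro x hx a b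
    fin_cases a <;> fin_cases b
    · simpa using (hd _ (m1 x hx)).1
    · simpa using (hd _ (m1 x hx)).2.2
    · have := (hd _ (m2 x hx)).2.2
      rw [← norm_star, star_mul, star_mul, star_star, star_star, ← mul_assoc] at this
      simpa using this
    · simpa using (hd _ (m1 x hx)).2.1
  refine ⟨![d1, d2], hn, fun x hx a b => ⟨(c x hx a).trans (by linarith), ?_⟩⟩
  have e : star (![d1, d2] a) * ![d1, d2] b * x - (if a = b then x else 0)
      = star (![d1, d2] a) * (![d1, d2] b * x - x * ![d1, d2] b)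
        + (star (![d1, d2] a) * x * ![d1, d2] b - (if a = b then x else 0)) := by
    noncomm_ring
  rw [e]
  refine (norm_add_le _ _).trans_lt ?_
  have a1 := norm_mul_le (star (![d1, d2] a)) (![d1, d2] b * x - x * ![d1, d2] b)
  rw [norm_star] at a1
  have a2 := c x hx b
  have a3 := f x hx a b
  have a4 := hn a
  have a5 := norm_nonneg (![d1, d2] b * x - x * ![d1, d2] b)
  nlinarith

/-- the same with two named elements -/
theorem cenIso_pair (h : Pre A) (F : Finset A) {ε : ℝ} (hε : 0 < ε) :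
    ∃ d1 d2 : A, ‖d1‖ ≤ 1 ∧ ‖d2‖ ≤ 1 ∧ ∀ x ∈ F,
      ‖d1 * x - x * d1‖ < ε ∧ ‖d2 * x - x * d2‖ < ε ∧ ‖star d1 * d1 * x - x‖ < ε ∧
      ‖star d2 * d2 * x - x‖ < ε ∧ ‖star d1 * d2 * x‖ < ε ∧ ‖star d2 * d1 * x‖ < ε := by
  obtain ⟨d, h1, h2⟩ := cenIso_of h F hε
  refine ⟨d 0, d 1, h1 0, h1 1, fun x hx => ⟨(h2 x hx 0 0).1, (h2 x hx 1 1).1, ?_, ?_, ?_, ?_⟩⟩
  · simpa using (h2 x hx 0 0).2
  · simpa using (h2 x hx 1 1).2
  · simpa using (h2 x hx 0 1).2
  · simpa using (h2 x hx 1 0).2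

end Vale.Agent.P133OC
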