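import Vale.Agent.P133OC.Cen

/-! It is enough to test `Pre` on finite sets of self-adjoint elements. -/

set_option linter.all false

namespace Vale.Agent.P133OC

variable {A : Type*} [NonUnitalCStarAlgebra A]

theorem pre_of_sa (h : ∀ (F : Finset A), (∀ x ∈ F, IsSelfAdjoint x) → ∀ ε : ℝ, 0 < ε →
    ∃ d1 d2 : A, ∀ x ∈ F, ‖star d1 * x * d1 - x‖ < ε ∧ ‖star d2 * x * d2 - x‖ < ε ∧
      ‖star d1 * x * d2‖ < ε) : Pre A := by
  classical
  intro F ε hε
  obtain ⟨d1, d2, hd⟩ := h (F.image (fun x => (realPart x : A)) ∪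
    F.image (fun x => (imaginaryPart x : A))) (by
      intro x hx
      rcases Finset.mem_union.1 hx with hx | hx
      · obtain ⟨y, -, rfl⟩ := Finset.mem_image.1 hx
        exact (realPart y).2
      · obtain ⟨y, -, rfl⟩ := Finset.mem_image.1 hx
        exact (imaginaryPart y).2) (ε / 2) (by positivity)
  refine ⟨d1, d2, fun x hx => ?_⟩
  have h1 := hd _ (Finset.mem_union_left _ (Finset.mem_image_of_mem _ hx))
  have h2 := hd _ (Finset.mem_union_right _ (Finset.mem_image_of_mem _ hx))
  have e := realPart_add_I_smul_imaginaryPart x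
  generalize (realPart x : A) = a at e h1
  generalize (imaginaryPart x : A) = b at e h2
  subst e
  have k : ∀ u v : A, ‖u‖ < ε / 2 → ‖v‖ < ε / 2 → ‖u + Complex.I • v‖ < ε := by
    intro u v hu hv
    refine (norm_add_le _ _).trans_lt ?_
    rw [norm_smul, Complex.norm_I, one_mul]
    linarith
  have e1 : ∀ c d : A, c * (a + Complex.I • b) * d = c * a * d + Complex.I • (c * b * d) := by
    intro c d
    rw [mul_add, add_mul, mul_smul_comm, smul_mul_assoc]
  have e2 : ∀ d : A, star d * (a + Complex.I • b) * d - (a + Complex.I • b)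
      = (star d * a * d - a) + Complex.I • (star d * b * d - b) := by
    intro d
    rw [e1, smul_sub]; abel
  refine ⟨?_, ?_, ?_⟩
  · rw [e2]; exact k _ _ h1.1 h2.1
  · rw [e2]; exact k _ _ h1.2.1 h2.2.1
  · rw [e1]; exact k _ _ h1.2.2 h2.2.2

end Vale.Agent.P133OC
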